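import Vale.Agent.P221.St.IntA

/-!
# P221, statement layer: fp-spectra with sparse homotopy in high degrees
-/

open CategoryTheory MonoidalCategory OnePoint

noncomputable section

namespace Vale.Agent.P221.StI

open Vale.Agent.P251.St Vale.Agent.P251.St.SHCat Vale.Agent.P257.St

variable {T : SHCat} {R : RingSp T} {S : Susp T} {p : ℕ}

/-- There is an `N` such that for any two degrees `k, l ≥ N` with `π_k Y ≠ 0` and `π_l Y ≠ 0` the
difference `k - l` is even, and not congruent to one of `1, …, r - 1` modulo `2p - 2`. -/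
def Gap (p r : ℕ) (Y : T.C) : Prop :=
  ∃ N : ℤ, ∀ k l : ℤ, N ≤ k → N ≤ l → (∃ x : Pi k Y, x ≠ nul _ Y) → (∃ y : Pi l Y, y ≠ nul _ Y) →
    Even (k - l) ∧ ∀ i : ℕ, 1 ≤ i → i < r → ¬ (2 * p - 2 : ℤ) ∣ k - l - i

/-- `V` is a generalised Moore spectrum of type `j ≥ 1`, with stages `V_0 = S, V_1, …, V_j = V` as in
`IsGenMoore` (`V_{l+1}` is the cofibre of a self map of `V_l` which induces the multiplication by a
power of `v_l`), and `E l V_l` holds for all `l < j`. -/
inductive IsTower (φ : GHom S p R) (E : ℕ → T.C → Prop) : ℕ → T.C → Prop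
  | base {i : ℕ} {V : T.C} {g : Hom T.one V} {h : Hom V (sus T.one)} :
      E 0 T.one → 0 < i → Dist (zmul ((p : ℤ) ^ i) (ident T.one)) g h → IsTower φ E 1 V
  | step {j k i : ℕ} {V W : T.C} {f : Hom (ten (S.obj (Cn k)) V) V} {g : Hom V W}
      {h : Hom W (sus (ten (S.obj (Cn k)) V))} {w : VPoly p k} :
      IsTower φ E j V → E j V → 0 < i → (w : MvPolynomial ℕ ℤ) = vEl p j ^ i →
        (∀ (m : ℤ) (y : Pi m (ten R.obj (ten (S.obj (Cn k)) V))), comp y (tenL R.obj f) =
          comp y (comp (assocInv R.obj (S.obj (Cn k)) V) (tenR (mulBy (φ.val w)) V))) →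
        Dist f g h → IsTower φ E (j + 1) W

/-- `X` is `p`-complete and bounded below, and there are a generalised Moore spectrum `V` of type
`n + 1` such that `π_* (X ⊗ V)` is finite (so `X` is an fp-spectrum of fp-type at most `n`), with
stages `S = V_0, V_1, …, V_{n+1} = V`, and a number `m`, such that in high degrees the homotopy of
`X ⊗ V_j` is concentrated in degrees of one parity for all `j < m`, and the homotopy of `X ⊗ V_m` is
concentrated in a set of residue classes modulo `2p - 2` which have the same parity and no two of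
which differ by one of `1, …, n - m - 1`. For `m = 0` and `n ≤ 2` this means that the homotopy of
`X` is concentrated in high degrees in degrees of one parity. -/
def IsSparseFp (S : Susp T) (p n : ℕ) (X : T.C) : Prop :=
  PComplete p X ∧ BoundedBelow X ∧
    ∃ (P : RingSp T) (o : Oriented S P) (φ : GHom S p P) (V : T.C) (m : ℕ) (N : ℤ),
      IsBrownPeterson p o φ ∧
        IsTower φ (fun j W => j ≤ m → Gap p (if j = m then n - m else 0) (ten X W)) (n + 1) V ∧
        ∀ k : ℤ, Finite (Pi k (ten X V)) ∧ (N < |k| → ∀ y : Pi k (ten X V), y = nul _ _)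

/-- There are a map `Y ⟶ P` such that `π_k Y ⟶ π_k P` is bijective for all large `k`, and a spectrum
`W` such that the sphere spectrum belongs to the thick subcategory generated by `W` (for example
`W = S`, or a finite spectrum of type `0`), such that `Y ⊗ W` is as in `IsSparseFp`. -/
def IsGenE (S : Susp T) (p n : ℕ) (P : T.C) : Prop :=
  ∃ (Y W : T.C) (c : Hom Y P), EvIso c ∧ ThickOf (fun Z => Z = W) T.one ∧
    IsSparseFp S p n (ten Y W)

end Vale.Agent.P221.StI
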