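import Vale.Agent.P257.H80.StBP

/-!
# P221, statement layer: standard forms of `BP⟨n⟩`, fp-spectra, missing residue classes
-/

open CategoryTheory MonoidalCategory OnePoint

noncomputable section

namespace Vale.Agent.P221.StM

open Vale.Agent.P251.St Vale.Agent.P251.St.SHCat Vale.Agent.P257.St

variable {T : SHCat}

/-- the zero map -/
abbrev nul (X Y : T.C) : Hom X Y := 0

/-- `π_k X` -/
abbrev Pi (k : ℤ) (X : T.C) : Type := Hom (sphere T k) X

/-- `ThickOf Q` is the thick subcategory generated by the class `Q`: the smallest class of spectra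
which contains `Q` and `0` and is closed under suspensions (of all integer degrees), cofiber
sequences and retracts (hence under isomorphisms and finite sums). -/
inductive ThickOf (Q : T.C → Prop) : T.C → Prop
  | base {X : T.C} : Q X → ThickOf Q X
  | zero {X : T.C} : ident X = nul X X → ThickOf Q X
  | susp (k : ℤ) {X : T.C} : ThickOf Q X → ThickOf Q (X⟦k⟧)
  | cof {X Y Z : T.C} {f : Hom X Y} {g : Hom Y Z} {h : Hom Z (sus X)} :
      Dist f g h → ThickOf Q X → ThickOf Q Y → ThickOf Q Z
  | retract {X Y : T.C} (i : Hom X Y) (r : Hom Y X) :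
      comp i r = ident X → ThickOf Q Y → ThickOf Q X

/-- `X` is `p`-complete: there are no nonzero maps `W ⟶ X` if `p` is invertible on `W`. -/
def PComplete (p : ℕ) (X : T.C) : Prop :=
  ∀ W : T.C, IsIso (zmul p (ident W)) → ∀ g : Hom W X, g = nul W X

/-- `c : X ⟶ Y` is the `p`-completion of `X`. -/
def IsPCompletion (p : ℕ) {X Y : T.C} (c : Hom X Y) : Prop :=
  PComplete p Y ∧ ∀ Z : T.C, PComplete p Z → ∀ f : Hom X Z, ∃! g : Hom Y Z, comp c g = f

/-- `π_k X = 0` for all small `k`. -/
def BoundedBelow (X : T.C) : Prop := ∃ N : ℤ, ∀ k < N, ∀ f : Pi k X, f = nul _ X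

/-- `π_k f` is bijective for all large `k`. -/
def EvIso {X Y : T.C} (f : Hom X Y) : Prop :=
  ∃ N : ℤ, ∀ k ≥ N, Function.Bijective fun x : Pi k X => comp x f

variable {R : RingSp T} {S : Susp T} {p : ℕ}

/-- `a : R ⊗ X ⟶ X` makes `X` a homotopy `R`-module. -/
def IsAct {X : T.C} (a : Hom (ten R.obj X) X) : Prop :=
  comp (leftInv X) (comp (tenR R.unit X) a) = ident X ∧
    comp (tenR R.mul X) a = comp (assoc R.obj R.obj X) (comp (tenL R.obj a) a)

/-- `x ∈ π_{2(p^j-1)} R` is a polynomial generator: up to a factor prime to `p` it is the value of a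
polynomial `w ∈ ℤ[v_1, v_2, …]` of degree `2(p^j-1)` in which the coefficient of `v_j` is prime
to `p`. (For `R = BP`, where `π_* R = ℤ_(p)[v_1, v_2, …]`, this means that `x` is the product of a
unit with `v_j`, modulo decomposable elements.) -/
def IsPolyGen (φ : GHom S p R) (j : ℕ) (x : Hom (S.obj (Cn (p ^ j - 1))) R.obj) : Prop :=
  ∃ (m : ℤ) (w : VPoly p (p ^ j - 1)), ¬ (p : ℤ) ∣ m ∧
    ¬ (p : ℤ) ∣ MvPolynomial.coeff (Finsupp.single (j - 1) 1) (w : MvPolynomial ℕ ℤ) ∧
    zmul m x = φ.val w

/-- the multiplication `R ⊗ S^{2k} ⟶ R` by `x ∈ π_{2k} R` -/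
abbrev mulBy {k : ℕ} (x : Hom (S.obj (Cn k)) R.obj) : Hom (ten R.obj (S.obj (Cn k))) R.obj :=
  comp (tenHom (ident R.obj) x) R.mul

/-- `q : R ⟶ C` is the quotient of `R` by the elements `x_{n+1}, x_{n+2}, …` of its homotopy, as a
homotopy `R`-module: it is `R`-linear and onto on homotopy, and the kernel of `π_* q` consists of
the finite sums of products `b_j x_j`, `j > n`. -/
structure IsQuotient (n : ℕ) (x : ∀ j : ℕ, Hom (S.obj (Cn (p ^ j - 1))) R.obj) {C : T.C}
    (a : Hom (ten R.obj C) C) (q : Hom R.obj C) : Prop where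
  act : IsAct a
  map : comp R.mul q = comp (tenL R.obj q) a
  surj : ∀ (k : ℤ) (y : Pi k C), ∃ u : Pi k R.obj, comp u q = y
  ker : ∀ (k : ℤ) (u : Pi k R.obj), comp u q = nul _ C ↔
    ∃ (N : ℕ) (b : ∀ j : ℕ, Pi k (ten R.obj (S.obj (Cn (p ^ j - 1))))),
      u = ∑ j ∈ Finset.Ioc n N, comp (b j) (mulBy (x j))

/-- `B` is a standard form of `BP⟨n⟩_p`: the `p`-completion of the quotient of the Brown-Peterson
spectrum by polynomial generators `x_j` of degree `2(p^j-1)`, `j > n`. -/
def IsStandardForm (S : Susp T) (p n : ℕ) (B : T.C) : Prop :=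
  ∃ (P : RingSp T) (o : Oriented S P) (φ : GHom S p P)
    (x : ∀ j : ℕ, Hom (S.obj (Cn (p ^ j - 1))) P.obj)
    (C : T.C) (a : Hom (ten P.obj C) C) (q : Hom P.obj C) (c : Hom C B),
    IsBrownPeterson p o φ ∧ (∀ j, n < j → IsPolyGen φ j (x j)) ∧ IsQuotient n x a q ∧
      IsPCompletion p c

/-- `V` is a generalised Moore spectrum of type `j ≥ 1`, with stages `V_0, V_1, …, V_j = V`: `V_0` is
the sphere spectrum, `V_1` is the cofibre of `p ^ i_0` on it, `i_0 > 0`, and `V_{l+1}` is the cofibre
of a self map `f : Σ^{2k} V_l ⟶ V_l` which induces the multiplication by `v_l ^ i_l` on `R_* V_l`,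
`i_l > 0`: the maps `R ⊗ S^{2k} ⊗ V_l ⟶ R ⊗ V_l` given by `f` and by the multiplication with
`v_l ^ i_l` are equal on homotopy groups. (Here `R = BP`, and `v_l = φ (v_l)` are the Hazewinkel
generators.) Moreover `E l V_l` holds for all `l < j`. -/
inductive IsTower (φ : GHom S p R) (E : ℕ → T.C → Prop) : ℕ → T.C → Prop
  | base {i : ℕ} {V : T.C} {g : Hom T.one V} {h : Hom V (sus T.one)} :
      E 0 T.one → 0 < i → Dist (zmul ((p : ℤ) ^ i) (ident T.one)) g h → IsTower φ E 1 V
  | step {j k i : ℕ} {V W : T.C} {f : Hom (ten (S.obj (Cn k)) V) V} {g : Hom V W}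
      {h : Hom W (sus (ten (S.obj (Cn k)) V))} {w : VPoly p k} :
      IsTower φ E j V → E j V → 0 < i → (w : MvPolynomial ℕ ℤ) = vEl p j ^ i →
        (∀ (m : ℤ) (y : Pi m (ten R.obj (ten (S.obj (Cn k)) V))), comp y (tenL R.obj f) =
          comp y (comp (assocInv R.obj (S.obj (Cn k)) V) (tenR (mulBy (φ.val w)) V))) →
        Dist f g h → IsTower φ E (j + 1) W

/-- `X` is an fp-spectrum of fp-type at most `n`: it is `p`-complete and bounded below, and there is
a generalised Moore spectrum `V` of type `n + 1` such that `π_* (X ⊗ V)` is finite. (By the thick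
subcategory theorem and the periodicity theorem this holds for some finite `p`-local spectrum `V` of
type `n + 1` if and only if it holds for all of them, and generalised Moore spectra exist.) Moreover
`E j V_j` holds for the stages `S = V_0, V_1, …, V_n` of `V`. -/
def IsFp (S : Susp T) (p n : ℕ) (E : ℕ → T.C → Prop) (X : T.C) : Prop :=
  PComplete p X ∧ BoundedBelow X ∧
    ∃ (P : RingSp T) (o : Oriented S P) (φ : GHom S p P) (V : T.C) (N : ℤ),
      IsBrownPeterson p o φ ∧ IsTower φ E (n + 1) V ∧ ∀ k : ℤ, Finite (Pi k (ten X V)) ∧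
        (N < |k| → ∀ y : Pi k (ten X V), y = nul _ _)

/-- `X` is an fp-spectrum of fp-type at most `n` -/
abbrev Fp (S : Susp T) (p n : ℕ) (X : T.C) : Prop := IsFp S p n (fun _ _ => True) X

/-- `X` is a homotopy module over some (homotopy) commutative ring spectrum with a complex
orientation, for example over `MU`, `BP`, complex `K`-theory, or an Eilenberg-Mac Lane spectrum. -/
def IsOr (S : Susp T) (X : T.C) : Prop :=
  ∃ (R : RingSp T) (_ : Oriented S R) (a : Hom (ten R.obj X) X), IsAct a

/-- `D` is a union of residue classes modulo `2p - 2` -/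
def Per (p : ℕ) (D : ℤ → Prop) : Prop := ∀ t, D (t + (2 * p - 2)) ↔ D t

/-- `π_k X = 0` for all large `k` which are not in `D` -/
def Conc (D : ℤ → Prop) (X : T.C) : Prop := ∃ N : ℤ, ∀ k ≥ N, ¬ D k → ∀ y : Pi k X, y = nul _ X

/-- The smallest class of spectra which contains
* `missing`: the fp-spectra `X` of fp-type at most `n` with `π_k X = 0` for all large `k` in
  `max(1, n - 1)` consecutive residue classes modulo `2p - 2`;
* `sparse`: the fp-spectra `X` of fp-type at most `n`, such that for some `m` and some set `D` of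
  degrees of the same parity, a union of residue classes modulo `2p - 2`, no two elements of which
  differ by one of `1, …, n - m - 1`, the homotopy of `X ⊗ V_j` is concentrated, in high degrees, in
  the degrees in `D`, for all `j ≤ m`; here `S = V_0, V_1, …` are the stages of a generalised Moore
  spectrum `V` as in `IsFp`;
* `module`: the homotopy modules over complex oriented ring spectra which agree in high degrees with
  an fp-spectrum of fp-type at most `n`;

and which
* `thick`: contains the thick subcategories generated by its members;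
* `high`: contains `Y`, if there is a map `X ⟶ Y` from a member `X` which is bijective on `π_k` for
  all large `k`;
* `low`: contains the fp-spectrum `X` of fp-type at most `n`, if there is such a map `X ⟶ Y` to a
  member `Y`;
* `ten`: contains `X`, if `X ⊗ W` is a member and an fp-spectrum of fp-type at most `n`, for some
  `W` such that the sphere spectrum belongs to the thick subcategory generated by `W` (so it contains
  for example the fp-spectra of fp-type at most `n` which are modules over real `K`-theory). -/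
inductive Cls (S : Susp T) (p n : ℕ) : T.C → Prop
  | missing {X : T.C} {D : ℤ → Prop} {a : ℤ} : Per p D → (∀ i : ℕ, i < max 1 (n - 1) → ¬ D (a + i)) →
      Fp S p n X → Conc D X → Cls S p n X
  | sparse {X : T.C} {D : ℤ → Prop} {m : ℕ} : Per p D → (∀ s t, D s → D t → Even (s - t)) →
      (∀ (t : ℤ) (i : ℕ), D t → 0 < i → i + m < n → ¬ D (t + i)) →
      IsFp S p n (fun j W => j ≤ m → Conc D (ten X W)) X → Cls S p n X
  | module {X Y : T.C} (c : Hom Y X) : EvIso c → Fp S p n Y → IsOr S X → Cls S p n X
  | thick {Q : T.C → Prop} {X : T.C} : (∀ Y, Q Y → Cls S p n Y) → ThickOf Q X → Cls S p n X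
  | high {X Y : T.C} (c : Hom X Y) : EvIso c → Cls S p n X → Cls S p n Y
  | low {X Y : T.C} (c : Hom X Y) : EvIso c → Fp S p n X → Cls S p n Y → Cls S p n X
  | ten {X W : T.C} : ThickOf (fun Z => Z = W) T.one → Fp S p n (ten X W) →
      Cls S p n (ten X W) → Cls S p n X

end Vale.Agent.P221.StM
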